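import Mathlib

namespace Vale.Agent.Lib.P226

open MeasureTheory ProbabilityTheory

variable {E : Type*} [NormedAddCommGroup E] [InnerProductSpace ℝ E] [FiniteDimensional ℝ E]
  [MeasurableSpace E] [BorelSpace E]

/-- law of a linear functional under the standard Gaussian -/
lemma map_inner (z : E) :
    (stdGaussian E).map (innerSL ℝ z) = gaussianReal 0 (‖z‖ ^ 2).toNNReal := by
  rw [IsGaussian.map_eq_gaussianReal (innerSL ℝ z), integral_strongDual_stdGaussian,
    variance_dual_stdGaussian, innerSL_apply_norm]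

lemma mgf_inner (z : E) (t : ℝ) :
    ∫ x, Real.exp (t * inner ℝ z x) ∂(stdGaussian E) = Real.exp (‖z‖ ^ 2 * t ^ 2 / 2) := by
  have h := mgf_gaussianReal (map_inner z) t
  rw [Real.coe_toNNReal _ (sq_nonneg _)] at h
  simpa [mgf] using h

lemma integrable_exp_inner (z : E) (t : ℝ) :
    Integrable (fun x => Real.exp (t * inner ℝ z x)) (stdGaussian E) := by
  have h := mgf_gaussianReal (map_inner z) t
  have hpos : 0 < mgf (innerSL ℝ z) (stdGaussian E) t := by rw [h]; exact Real.exp_pos _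
  have := mgf_pos_iff.mp hpos
  simpa using this

/-- pointwise bound: `y ≤ t + exp(l y) * exp(-l t - 1) / l` -/
lemma pointwise (y l t : ℝ) (hl : 0 < l) :
    y ≤ t + Real.exp (l * y) * Real.exp (-l * t - 1) / l := by
  have h1 := Real.add_one_le_exp (l * (y - t) - 1)
  have h2 : Real.exp (l * (y - t) - 1) = Real.exp (l * y) * Real.exp (-l * t - 1) := by
    rw [← Real.exp_add]; congr 1; ring
  rw [h2] at h1
  have h3 : y - t ≤ Real.exp (l * y) * Real.exp (-l * t - 1) / l := by
    rw [le_div_iff₀ hl]; linarith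
  linarith

/-- one-parameter family of bounds for the first moment of a cell -/
lemma cell_lam (A : Set E) (l : ℝ) (hl : 0 < l)
    (hp : 0 < ((stdGaussian E) A).toReal) :
    ‖∫ x in A, x ∂(stdGaussian E)‖ ^ 2 ≤ ((stdGaussian E) A).toReal *
      (l * ‖∫ x in A, x ∂(stdGaussian E)‖ ^ 2 / 2 +
        Real.log (1 / ((stdGaussian E) A).toReal) / l) := by
  set γ := stdGaussian E with hγ
  set z := ∫ x in A, x ∂γ with hz
  set p := (γ A).toReal with hpdef
  have hint : Integrable (fun x : E => x) (γ.restrict A) :=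
    (IsGaussian.integrable_id (μ := γ)).restrict
  have h1 : ‖z‖ ^ 2 = ∫ x in A, inner ℝ z x ∂γ := by
    rw [integral_inner hint z, ← hz, real_inner_self_eq_norm_sq]
  obtain ⟨t, ht⟩ : ∃ t : ℝ, t = (l ^ 2 * ‖z‖ ^ 2 / 2 - 1 - Real.log p) / l := ⟨_, rfl⟩
  obtain ⟨K, hK⟩ : ∃ K : ℝ, K = Real.exp (-l * t - 1) := ⟨_, rfl⟩
  have hKpos : 0 < K := by rw [hK]; exact Real.exp_pos _
  have hexpint : Integrable (fun x => Real.exp (l * inner ℝ z x)) γ :=
    integrable_exp_inner z l
  have hL : IntegrableOn (fun x => inner ℝ z x) A γ := by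
    have := (IsGaussian.integrable_dual γ (innerSL ℝ z)).integrableOn (s := A)
    simpa using this
  have hR : IntegrableOn (fun x => t + Real.exp (l * inner ℝ z x) * K / l) A γ := by
    apply Integrable.integrableOn
    exact (integrable_const _).add ((hexpint.mul_const _).div_const _)
  have h2 : ∫ x in A, inner ℝ z x ∂γ ≤
      ∫ x in A, (t + Real.exp (l * inner ℝ z x) * K / l) ∂γ := by
    refine setIntegral_mono hL hR (fun x => ?_)
    rw [hK]; exact pointwise _ l t hl
  have e1 : ∫ _x in A, t ∂γ = t * p := by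
    rw [setIntegral_const]
    simp only [Measure.real, smul_eq_mul]
    rw [← hpdef]; ring
  have e2 : ∫ x in A, Real.exp (l * inner ℝ z x) * K / l ∂γ
      = (∫ x in A, Real.exp (l * inner ℝ z x) ∂γ) * K / l := by
    rw [integral_div, integral_mul_const]
  have h3 : ∫ x in A, (t + Real.exp (l * inner ℝ z x) * K / l) ∂γ
      = t * p + (∫ x in A, Real.exp (l * inner ℝ z x) ∂γ) * K / l := by
    rw [integral_add (integrable_const _)
      ((hexpint.integrableOn.mul_const _).div_const _), e1, e2]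
  have h4 : ∫ x in A, Real.exp (l * inner ℝ z x) ∂γ ≤ Real.exp (‖z‖ ^ 2 * l ^ 2 / 2) := by
    calc ∫ x in A, Real.exp (l * inner ℝ z x) ∂γ
        ≤ ∫ x, Real.exp (l * inner ℝ z x) ∂γ :=
          setIntegral_le_integral hexpint
            (Filter.Eventually.of_forall (fun x => (Real.exp_pos _).le))
      _ = Real.exp (‖z‖ ^ 2 * l ^ 2 / 2) := mgf_inner z l
  have h5 : Real.exp (‖z‖ ^ 2 * l ^ 2 / 2) * K = p := by
    rw [hK, ← Real.exp_add]
    have : ‖z‖ ^ 2 * l ^ 2 / 2 + (-l * t - 1) = Real.log p := by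
      rw [ht]; field_simp; ring
    rw [this, Real.exp_log hp]
  have h6 : (∫ x in A, Real.exp (l * inner ℝ z x) ∂γ) * K / l ≤ p / l := by
    apply div_le_div_of_nonneg_right _ hl.le
    calc (∫ x in A, Real.exp (l * inner ℝ z x) ∂γ) * K
        ≤ Real.exp (‖z‖ ^ 2 * l ^ 2 / 2) * K := mul_le_mul_of_nonneg_right h4 hKpos.le
      _ = p := h5
  have h7 : t * p + p / l = p * (l * ‖z‖ ^ 2 / 2 + Real.log (1 / p) / l) := by
    rw [one_div, Real.log_inv, ht]; field_simp; ring
  calc ‖z‖ ^ 2 = ∫ x in A, inner ℝ z x ∂γ := h1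
    _ ≤ ∫ x in A, (t + Real.exp (l * inner ℝ z x) * K / l) ∂γ := h2
    _ = t * p + (∫ x in A, Real.exp (l * inner ℝ z x) ∂γ) * K / l := h3
    _ ≤ t * p + p / l := by linarith
    _ = p * (l * ‖z‖ ^ 2 / 2 + Real.log (1 / p) / l) := h7

/-- Gaussian level-one inequality: the first-moment vector of a cell of Gaussian measure `p`
has squared norm at most `2 p^2 log(1/p)` -/
lemma cell_bound (A : Set E) :
    ‖∫ x in A, x ∂(stdGaussian E)‖ ^ 2 ≤
      2 * ((stdGaussian E) A).toReal ^ 2 * Real.log (1 / ((stdGaussian E) A).toReal) := by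
  set γ := stdGaussian E with hγ
  set z := ∫ x in A, x ∂γ with hz
  set p := (γ A).toReal with hp
  have hp0 : 0 ≤ p := ENNReal.toReal_nonneg
  have hp1 : p ≤ 1 := by
    have : γ A ≤ 1 := prob_le_one
    exact ENNReal.toReal_le_of_le_ofReal zero_le_one (by simpa using this)
  have hlog0 : 0 ≤ Real.log (1 / p) := by
    rcases hp0.eq_or_lt with h | h
    · rw [← h]; simp
    · apply Real.log_nonneg
      rw [le_div_iff₀ h]; linarith
  by_cases hσ : ‖z‖ = 0
  · rw [hσ]
    have : (0:ℝ) ≤ 2 * p ^ 2 * Real.log (1 / p) := by positivity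
    simpa using this
  have hσpos : 0 < ‖z‖ := lt_of_le_of_ne (norm_nonneg _) (Ne.symm hσ)
  have hppos : 0 < p := by
    by_contra hcon
    have hp00 : p = 0 := le_antisymm (not_lt.mp hcon) hp0
    have hA0 : γ A = 0 := by
      rcases (ENNReal.toReal_eq_zero_iff _).mp hp00 with h | h
      · exact h
      · exact absurd h (measure_ne_top _ _)
    have : z = 0 := by
      rw [hz, Measure.restrict_eq_zero.mpr hA0, integral_zero_measure]
    exact hσ (by rw [this, norm_zero])
  rcases hlog0.eq_or_lt with h0 | hpos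
  · -- log (1/p) = 0 : then the bound with l = 1 forces z = 0
    have h := cell_lam A 1 one_pos hppos
    rw [← hγ, ← hz, ← hp, ← h0] at h
    have hz2 : 0 < ‖z‖ ^ 2 := by positivity
    nlinarith
  · set Lg := Real.log (1 / p) with hLg
    set u := Real.sqrt (2 * Lg) with hu
    have hupos : 0 < u := Real.sqrt_pos.mpr (by positivity)
    have hu2 : u ^ 2 = 2 * Lg := Real.sq_sqrt (by positivity)
    have h := cell_lam A (u / ‖z‖) (by positivity) hppos
    rw [← hγ, ← hz, ← hp, ← hLg] at h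
    have e1 : p * (u / ‖z‖ * ‖z‖ ^ 2 / 2 + Lg / (u / ‖z‖)) = p * u * ‖z‖ := by
      have : Lg = u ^ 2 / 2 := by linarith
      rw [this]; field_simp; ring
    rw [e1] at h
    have h6 : ‖z‖ ≤ p * u := by
      have : ‖z‖ * ‖z‖ ≤ (p * u) * ‖z‖ := by
        have e2 : ‖z‖ * ‖z‖ = ‖z‖ ^ 2 := by ring
        rw [e2]; exact h
      exact le_of_mul_le_mul_right this hσpos
    have h7 : ‖z‖ ^ 2 ≤ (p * u) ^ 2 := pow_le_pow_left₀ (norm_nonneg _) h6 2
    have h8 : (p * u) ^ 2 = 2 * p ^ 2 * Lg := by rw [mul_pow, hu2]; ring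
    rw [← h8]; exact h7

/-- total mass of pairwise disjoint measurable cells is at most one -/
lemma sum_mass_le_one {k : ℕ} (A : Fin k → Set E) (hA : ∀ i, MeasurableSet (A i))
    (hd : Pairwise (fun i j => Disjoint (A i) (A j))) :
    ∑ i, ((stdGaussian E) (A i)).toReal ≤ 1 := by
  have h1 : ∑ i, (stdGaussian E) (A i) ≤ (stdGaussian E) Set.univ := by
    have := sum_measure_le_measure_univ (μ := stdGaussian E) (s := Finset.univ) (t := A)
      (fun i _ => (hA i).nullMeasurableSet)
      (fun i _ j _ hij => (hd hij).aedisjoint)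
    exact this
  rw [measure_univ] at h1
  rw [← ENNReal.toReal_sum (fun i _ => measure_ne_top _ _)]
  exact ENNReal.toReal_le_of_le_ofReal zero_le_one (by simpa using h1)

/-- `p log(1/p) ≤ (log 16)/16` for `0 ≤ p ≤ 1/16` -/
lemma small_log (p : ℝ) (hp0 : 0 ≤ p) (hp : p ≤ 1 / 16) :
    p * Real.log (1 / p) ≤ Real.log 16 / 16 := by
  rcases hp0.eq_or_lt with h | h
  · have h16' : (0:ℝ) ≤ Real.log 16 / 16 := by
      have := Real.log_nonneg (show (1:ℝ) ≤ 16 by norm_num)
      positivity
    rw [← h]; simpa using h16'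
  · have h16 : (1:ℝ) ≤ Real.log 16 := by
      have h2 : (0.6931471803 : ℝ) < Real.log 2 := Real.log_two_gt_d9
      have : Real.log 16 = 4 * Real.log 2 := by
        rw [show (16:ℝ) = 2 ^ 4 by norm_num, Real.log_pow]; norm_num
      rw [this]; linarith
    -- 1/p = 16 * (1/(16 p))
    have hs : 0 < 16 * p := by positivity
    have e : Real.log (1 / p) = Real.log 16 + Real.log (1 / (16 * p)) := by
      rw [← Real.log_mul (by norm_num) (by positivity)]
      congr 1; field_simp
    have hle : Real.log (1 / (16 * p)) ≤ 1 / (16 * p) - 1 :=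
      Real.log_le_sub_one_of_pos (by positivity)
    rw [e]
    have h3 : p * Real.log (1 / (16 * p)) ≤ 1 / 16 - p := by
      have := mul_le_mul_of_nonneg_left hle h.le
      have e2 : p * (1 / (16 * p) - 1) = 1 / 16 - p := by field_simp
      linarith
    nlinarith

theorem cells_main (k : ℕ) (A : Fin k → Set E) (hA : ∀ i, MeasurableSet (A i))
    (hd : Pairwise (fun i j => Disjoint (A i) (A j))) :
    (∀ i, ‖∫ x in A i, x ∂(stdGaussian E)‖ ^ 2 ≤
      2 * ((stdGaussian E) (A i)).toReal ^ 2 *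
        Real.log (1 / ((stdGaussian E) (A i)).toReal)) ∧
    ((∀ i, ((stdGaussian E) (A i)).toReal ≤ 1 / 16) →
      ∑ i, ‖∫ x in A i, x ∂(stdGaussian E)‖ ^ 2 ≤ 9 / (8 * Real.pi)) := by
  refine ⟨fun i => cell_bound (A i), fun hsmall => ?_⟩
  have h2 : ∀ i, ‖∫ x in A i, x ∂(stdGaussian E)‖ ^ 2 ≤
      ((stdGaussian E) (A i)).toReal * (Real.log 16 / 8) := by
    intro i
    have hb := cell_bound (A i)
    have hs := small_log _ ENNReal.toReal_nonneg (hsmall i)
    have hp0 : 0 ≤ ((stdGaussian E) (A i)).toReal := ENNReal.toReal_nonneg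
    nlinarith
  have h3 : Real.log 16 / 8 ≤ 9 / (8 * Real.pi) := by
    have hpi : Real.pi < 3.1416 := Real.pi_lt_d4
    have hpi0 : 0 < Real.pi := Real.pi_pos
    have h2 : Real.log 2 < (0.6931471808 : ℝ) := Real.log_two_lt_d9
    have : Real.log 16 = 4 * Real.log 2 := by
      rw [show (16:ℝ) = 2 ^ 4 by norm_num, Real.log_pow]; norm_num
    rw [this, div_le_div_iff₀ (by positivity) (by positivity)]
    nlinarith
  calc ∑ i, ‖∫ x in A i, x ∂(stdGaussian E)‖ ^ 2
      ≤ ∑ i, ((stdGaussian E) (A i)).toReal * (Real.log 16 / 8) :=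
        Finset.sum_le_sum (fun i _ => h2 i)
    _ = (∑ i, ((stdGaussian E) (A i)).toReal) * (Real.log 16 / 8) := by
        rw [Finset.sum_mul]
    _ ≤ 1 * (Real.log 16 / 8) := by
        apply mul_le_mul_of_nonneg_right (sum_mass_le_one A hA hd)
        have : (0:ℝ) ≤ Real.log 16 := Real.log_nonneg (by norm_num)
        positivity
    _ ≤ 9 / (8 * Real.pi) := by rw [one_mul]; exact h3

end Vale.Agent.Lib.P226
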