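import Mathlib

namespace Vale.Agent.Lib.P226

open MeasureTheory ProbabilityTheory Real Set Filter Topology

/-- `E0 y = exp (-y^2/2)` -/
noncomputable def E0 (y : ℝ) : ℝ := Real.exp (-(1/2) * y ^ 2)

/-- polynomial upper bound of `E0` -/
noncomputable def P6 (y : ℝ) : ℝ :=
  1 - y ^ 2 / 2 + y ^ 4 / 8 - y ^ 6 / 48 + y ^ 8 / 384 - y ^ 10 / 3840 + y ^ 12 / 46080

/-- antiderivative of `P6` vanishing at `0` -/
noncomputable def Q6 (y : ℝ) : ℝ :=
  y - y ^ 3 / 6 + y ^ 5 / 40 - y ^ 7 / 336 + y ^ 9 / 3456 - y ^ 11 / 42240 + y ^ 13 / 599040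

lemma exp_neg_le_poly (u : ℝ) (hu : 0 ≤ u) :
    Real.exp (-u) ≤ 1 - u + u ^ 2 / 2 - u ^ 3 / 6 + u ^ 4 / 24 - u ^ 5 / 120 + u ^ 6 / 720 := by
  have h := Real.sum_le_exp_of_nonneg hu 7
  simp only [Finset.sum_range_succ, Finset.sum_range_zero, Nat.factorial] at h
  norm_num at h
  set p := 1 - u + u ^ 2 / 2 - u ^ 3 / 6 + u ^ 4 / 24 - u ^ 5 / 120 + u ^ 6 / 720 with hp
  set S := 1 + u + u ^ 2 / 2 + u ^ 3 / 6 + u ^ 4 / 24 + u ^ 5 / 120 + u ^ 6 / 720 with hS
  have hSpos : 0 < S := by positivity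
  have hprod : p * S = 1 + u ^ 8 / 2880 + u ^ 10 / 21600 + u ^ 12 / 518400 := by
    rw [hp, hS]; ring
  have hprod1 : 1 ≤ p * S := by
    rw [hprod]
    have h8 : 0 ≤ u ^ 8 := by positivity
    have h10 : 0 ≤ u ^ 10 := by positivity
    have h12 : 0 ≤ u ^ 12 := by positivity
    linarith
  have hppos : 0 < p := by
    by_contra hcon
    have : p * S ≤ 0 := mul_nonpos_of_nonpos_of_nonneg (not_lt.mp hcon) hSpos.le
    linarith
  have hSle : S ≤ Real.exp u := by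
    have e : S = 1 + u + u ^ 2 / 2 + u ^ 3 / 6 + u ^ 4 / 24 + u ^ 5 / 120 + u ^ 6 / 720 := hS
    linarith
  rw [Real.exp_neg, inv_le_comm₀ (Real.exp_pos u) hppos]
  calc p⁻¹ ≤ S := by
        rw [inv_le_iff_one_le_mul₀ hppos]; linarith [mul_comm p S]
    _ ≤ Real.exp u := hSle

lemma E0_le_P6 (y : ℝ) : E0 y ≤ P6 y := by
  have h := exp_neg_le_poly (y ^ 2 / 2) (by positivity)
  have e1 : E0 y = Real.exp (-(y ^ 2 / 2)) := by
    unfold E0; congr 1; ring
  rw [e1]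
  have e2 : P6 y = 1 - y ^ 2 / 2 + (y ^ 2 / 2) ^ 2 / 2 - (y ^ 2 / 2) ^ 3 / 6 + (y ^ 2 / 2) ^ 4 / 24
      - (y ^ 2 / 2) ^ 5 / 120 + (y ^ 2 / 2) ^ 6 / 720 := by
    unfold P6; ring
  rw [e2]; exact h

lemma hasDerivAt_Q6 (y : ℝ) : HasDerivAt Q6 (P6 y) y := by
  have h1 := hasDerivAt_id y
  have h3 := (hasDerivAt_pow 3 y).div_const 6
  have h5 := (hasDerivAt_pow 5 y).div_const 40
  have h7 := (hasDerivAt_pow 7 y).div_const 336
  have h9 := (hasDerivAt_pow 9 y).div_const 3456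
  have h11 := (hasDerivAt_pow 11 y).div_const 42240
  have h13 := (hasDerivAt_pow 13 y).div_const 599040
  have key := (((((h1.sub h3).add h5).sub h7).add h9).sub h11).add h13
  have hfun : Q6 = ((((((id - fun x : ℝ => x ^ 3 / 6) + fun x : ℝ => x ^ 5 / 40)
      - fun x : ℝ => x ^ 7 / 336) + fun x : ℝ => x ^ 9 / 3456) - fun x : ℝ => x ^ 11 / 42240)
      + fun x : ℝ => x ^ 13 / 599040) := by
    funext x
    simp [Q6]
  rw [hfun]
  refine key.congr_deriv ?_
  unfold P6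
  norm_num
  ring

lemma continuous_E0 : Continuous E0 := by
  unfold E0; fun_prop

lemma continuous_P6 : Continuous P6 := by
  unfold P6; fun_prop

lemma intervalIntegral_E0_le (t : ℝ) (ht : 0 ≤ t) : ∫ y in (0:ℝ)..t, E0 y ≤ Q6 t := by
  have h1 : ∫ y in (0:ℝ)..t, E0 y ≤ ∫ y in (0:ℝ)..t, P6 y :=
    intervalIntegral.integral_mono_on ht (continuous_E0.intervalIntegrable _ _)
      (continuous_P6.intervalIntegrable _ _) (fun y _ => E0_le_P6 y)
  have h2 : ∫ y in (0:ℝ)..t, P6 y = Q6 t - Q6 0 :=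
    intervalIntegral.integral_eq_sub_of_hasDerivAt (fun y _ => hasDerivAt_Q6 y)
      (continuous_P6.intervalIntegrable _ _)
  have h3 : Q6 0 = 0 := by unfold Q6; norm_num
  rw [h2, h3, sub_zero] at h1
  exact h1

/-- the Gaussian mean of the hinge function `y ↦ max (y - t) 0` -/
noncomputable def hinge (t : ℝ) : ℝ := ∫ y, max (y - t) 0 ∂(gaussianReal 0 1)

lemma E0_eq (y : ℝ) : E0 y = Real.exp (-(1/2) * y ^ 2) := rfl

lemma integrable_E0 : Integrable E0 := by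
  have := integrable_exp_neg_mul_sq (b := 1/2) (by norm_num)
  exact this

lemma integrable_mul_E0 : Integrable (fun y : ℝ => y * E0 y) := by
  have := integrable_mul_exp_neg_mul_sq (b := 1/2) (by norm_num)
  exact this

lemma hasDerivAt_neg_E0 (y : ℝ) : HasDerivAt (fun y => -E0 y) (y * E0 y) y := by
  have h1 : HasDerivAt (fun y : ℝ => -(1/2) * y ^ 2) (-(1/2) * (2 * y)) y := by
    have := (hasDerivAt_pow 2 y).const_mul (-(1/2) : ℝ)
    exact this.congr_deriv (by norm_num)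
  have h2 := (h1.exp).neg
  have e : (fun y => -E0 y) = (fun y : ℝ => -Real.exp (-(1/2) * y ^ 2)) := rfl
  rw [e]
  refine h2.congr_deriv ?_
  rw [E0_eq]; ring

lemma tendsto_neg_E0 : Tendsto (fun y => -E0 y) atTop (𝓝 0) := by
  have h1 : Tendsto (fun y : ℝ => -(1/2) * y ^ 2) atTop atBot := by
    have h2 : Tendsto (fun y : ℝ => y ^ 2) atTop atTop := tendsto_pow_atTop (by norm_num)
    have h3 := h2.const_mul_atTop_of_neg (show (-(1/2) : ℝ) < 0 by norm_num)
    exact h3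
  have h4 : Tendsto E0 atTop (𝓝 0) := Real.tendsto_exp_atBot.comp h1
  have := h4.neg
  simpa using this

lemma integral_Ioi_mul_E0 (t : ℝ) : ∫ y in Ioi t, y * E0 y = E0 t := by
  have := integral_Ioi_of_hasDerivAt_of_tendsto' (a := t) (f := fun y => -E0 y)
    (f' := fun y => y * E0 y) (m := 0) (fun y _ => hasDerivAt_neg_E0 y)
    integrable_mul_E0.integrableOn tendsto_neg_E0
  rw [this]; ring

lemma integral_Ioi_E0_zero : ∫ y in Ioi (0:ℝ), E0 y = Real.sqrt (2 * π) / 2 := by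
  have := integral_gaussian_Ioi (1/2)
  have e : π / (1/2) = 2 * π := by ring
  rw [e] at this
  exact this

lemma integral_Ioi_E0 (t : ℝ) (ht : 0 ≤ t) :
    ∫ y in Ioi t, E0 y = Real.sqrt (2 * π) / 2 - ∫ y in (0:ℝ)..t, E0 y := by
  have := intervalIntegral.integral_Ioi_sub_Ioi (f := E0) (a := 0) (b := t)
    integrable_E0.integrableOn ht
  rw [integral_Ioi_E0_zero] at this
  linarith

lemma hinge_eq (t : ℝ) (ht : 0 ≤ t) :
    hinge t = (Real.sqrt (2 * π))⁻¹ * (E0 t + t * ∫ y in (0:ℝ)..t, E0 y) - t / 2 := by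
  have hs : 0 < Real.sqrt (2 * π) := Real.sqrt_pos.mpr (by positivity)
  unfold hinge
  rw [integral_gaussianReal_eq_integral_smul (by norm_num)]
  have e1 : ∀ y : ℝ, gaussianPDFReal 0 1 y • max (y - t) 0
      = (Real.sqrt (2 * π))⁻¹ * (E0 y * max (y - t) 0) := by
    intro y
    rw [gaussianPDFReal, E0_eq, smul_eq_mul]
    have : -(y - 0) ^ 2 / (2 * ((1 : NNReal) : ℝ)) = -(1/2) * y ^ 2 := by
      push_cast; ring
    rw [this]
    push_cast
    ring_nf
  simp_rw [e1]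
  rw [integral_const_mul]
  have e2 : ∫ y, E0 y * max (y - t) 0 = ∫ y in Ioi t, E0 y * max (y - t) 0 := by
    symm
    apply setIntegral_eq_integral_of_forall_compl_eq_zero
    intro y hy
    have : y ≤ t := not_lt.mp hy
    rw [max_eq_right (by linarith), mul_zero]
  have e3 : ∫ y in Ioi t, E0 y * max (y - t) 0 = ∫ y in Ioi t, (y * E0 y - t * E0 y) := by
    apply setIntegral_congr_fun measurableSet_Ioi
    intro y hy
    have : t < y := hy
    simp only
    rw [max_eq_left (by linarith)]; ring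
  have e4 : ∫ y in Ioi t, (y * E0 y - t * E0 y)
      = (∫ y in Ioi t, y * E0 y) - t * ∫ y in Ioi t, E0 y := by
    rw [integral_sub integrable_mul_E0.integrableOn (integrable_E0.integrableOn.const_mul t),
      integral_const_mul]
  rw [e2, e3, e4, integral_Ioi_mul_E0, integral_Ioi_E0 t ht]
  field_simp
  ring

lemma hinge_le (t : ℝ) (ht : 0 ≤ t) :
    hinge t ≤ (Real.sqrt (2 * π))⁻¹ * (P6 t + t * Q6 t) - t / 2 := by
  have hs : 0 < (Real.sqrt (2 * π))⁻¹ := inv_pos.mpr (Real.sqrt_pos.mpr (by positivity))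
  rw [hinge_eq t ht]
  have h1 := E0_le_P6 t
  have h2 := intervalIntegral_E0_le t ht
  have h3 : t * ∫ y in (0:ℝ)..t, E0 y ≤ t * Q6 t := mul_le_mul_of_nonneg_left h2 ht
  have h4 : (Real.sqrt (2 * π))⁻¹ * (E0 t + t * ∫ y in (0:ℝ)..t, E0 y)
      ≤ (Real.sqrt (2 * π))⁻¹ * (P6 t + t * Q6 t) :=
    mul_le_mul_of_nonneg_left (by linarith) hs.le
  linarith

lemma hinge_nonneg (t : ℝ) : 0 ≤ hinge t := by
  unfold hinge
  exact integral_nonneg (fun y => le_max_right _ _)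

lemma inv_sqrt_two_pi_le : (Real.sqrt (2 * π))⁻¹ ≤ 1000000 / 2506628 := by
  have hpi := Real.pi_gt_d6
  have h1 : (2506628 / 1000000 : ℝ) ≤ Real.sqrt (2 * π) := by
    apply Real.le_sqrt_of_sq_le
    norm_num
    linarith
  have h2 : (0 : ℝ) < 2506628 / 1000000 := by norm_num
  calc (Real.sqrt (2 * π))⁻¹ ≤ (2506628 / 1000000 : ℝ)⁻¹ := inv_anti₀ h2 h1
    _ = 1000000 / 2506628 := by norm_num

end Vale.Agent.Lib.P226
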