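import Mathlib
import Vale.Agent.Lib.P226.Cells
import Vale.Agent.Lib.P226.Hinge

namespace Vale.Agent.Lib.P226

open MeasureTheory ProbabilityTheory Real Set

variable {E : Type*} [NormedAddCommGroup E] [InnerProductSpace ℝ E] [FiniteDimensional ℝ E]
  [MeasurableSpace E] [BorelSpace E]

/-- half-space bound for the first moment of a cell: for every `t ≥ 0`,
`‖z(A)‖ ≤ E (g - t)₊ + t γ(A)` with `g` a standard real Gaussian -/
lemma cell_hinge (A : Set E) (t : ℝ) (ht : 0 ≤ t) :
    ‖∫ x in A, x ∂(stdGaussian E)‖ ≤ hinge t + t * ((stdGaussian E) A).toReal := by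
  set γ := stdGaussian E with hγ
  set z := ∫ x in A, x ∂γ with hz
  set p := (γ A).toReal with hp
  have hp0 : 0 ≤ p := ENNReal.toReal_nonneg
  by_cases hz0 : z = 0
  · rw [hz0, norm_zero]
    have := hinge_nonneg t
    positivity
  have hzpos : 0 < ‖z‖ := norm_pos_iff.mpr hz0
  obtain ⟨u, hu⟩ : ∃ u : E, u = (‖z‖⁻¹) • z := ⟨_, rfl⟩
  have hunorm : ‖u‖ = 1 := by
    rw [hu, norm_smul, norm_inv, norm_norm, inv_mul_cancel₀ hzpos.ne']
  have hint : Integrable (fun x : E => x) (γ.restrict A) :=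
    (IsGaussian.integrable_id (μ := γ)).restrict
  have h1 : ‖z‖ = ∫ x in A, inner ℝ u x ∂γ := by
    rw [integral_inner hint u, ← hz, hu, inner_smul_left, real_inner_self_eq_norm_sq]
    simp only [conj_trivial]
    field_simp
  have hL : Integrable (fun x => inner ℝ u x) γ := by
    have := IsGaussian.integrable_dual γ (innerSL ℝ u)
    simpa using this
  have hH : Integrable (fun x => max (inner ℝ u x - t) 0) γ :=
    (hL.sub (integrable_const t)).pos_part
  have h2 : ∫ x in A, inner ℝ u x ∂γ ≤ ∫ x in A, (max (inner ℝ u x - t) 0 + t) ∂γ := by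
    refine setIntegral_mono hL.integrableOn
      (hH.integrableOn.add (integrable_const t).integrableOn) (fun x => ?_)
    have := le_max_left (inner ℝ u x - t) 0
    simp only
    linarith
  have e1 : ∫ _x in A, t ∂γ = t * p := by
    rw [setIntegral_const]
    simp only [Measure.real, smul_eq_mul]
    rw [← hp]; ring
  have h3 : ∫ x in A, (max (inner ℝ u x - t) 0 + t) ∂γ
      = (∫ x in A, max (inner ℝ u x - t) 0 ∂γ) + t * p := by
    rw [integral_add hH.integrableOn (integrable_const t).integrableOn, e1]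
  have h4 : ∫ x in A, max (inner ℝ u x - t) 0 ∂γ ≤ ∫ x, max (inner ℝ u x - t) 0 ∂γ :=
    setIntegral_le_integral hH (Filter.Eventually.of_forall (fun x => le_max_right _ _))
  have h5 : ∫ x, max (inner ℝ u x - t) 0 ∂γ = hinge t := by
    unfold hinge
    have hmap := map_inner (E := E) u
    rw [hunorm] at hmap
    have e : ((1:ℝ) ^ 2).toNNReal = 1 := by simp
    rw [e] at hmap
    rw [← hmap, integral_map]
    · simp
      rfl
    · exact (innerSL ℝ u).continuous.aemeasurable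
    · exact (by fun_prop : Continuous fun y : ℝ => max (y - t) 0).aestronglyMeasurable
  linarith

lemma hinge_num (t c : ℝ) (ht : 0 ≤ t) (hpos : 0 ≤ P6 t + t * Q6 t)
    (h : 1000000 / 2506628 * (P6 t + t * Q6 t) - t / 2 ≤ c) : hinge t ≤ c := by
  have h1 := hinge_le t ht
  have h2 := inv_sqrt_two_pi_le
  have h3 : (Real.sqrt (2 * π))⁻¹ * (P6 t + t * Q6 t)
      ≤ 1000000 / 2506628 * (P6 t + t * Q6 t) := mul_le_mul_of_nonneg_right h2 hpos
  linarith

lemma hinge_89 : hinge (89 / 100) ≤ 102285264 / 1000000000 :=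
  hinge_num _ _ (by norm_num) (by norm_num [P6, Q6]) (by norm_num [P6, Q6])

lemma hinge_65 : hinge (13 / 20) ≤ 155372442 / 1000000000 :=
  hinge_num _ _ (by norm_num) (by norm_num [P6, Q6]) (by norm_num [P6, Q6])

lemma hinge_62 : hinge (31 / 50) ≤ 163254100 / 1000000000 :=
  hinge_num _ _ (by norm_num) (by norm_num [P6, Q6]) (by norm_num [P6, Q6])

lemma hinge_60 : hinge (3 / 5) ≤ 168672785 / 1000000000 :=
  hinge_num _ _ (by norm_num) (by norm_num [P6, Q6]) (by norm_num [P6, Q6])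

lemma hinge_49 : hinge (49 / 100) ≤ 200899615 / 1000000000 :=
  hinge_num _ _ (by norm_num) (by norm_num [P6, Q6]) (by norm_num [P6, Q6])

lemma hinge_01 : hinge (1 / 100) ≤ 393962272 / 1000000000 :=
  hinge_num _ _ (by norm_num) (by norm_num [P6, Q6]) (by norm_num [P6, Q6])

lemma hinge_107 : hinge (107 / 100) ≤ 72790274 / 1000000000 :=
  hinge_num _ _ (by norm_num) (by norm_num [P6, Q6]) (by norm_num [P6, Q6])

lemma hinge_zero : hinge 0 = (Real.sqrt (2 * π))⁻¹ := by
  rw [hinge_eq 0 le_rfl]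
  simp [E0]

/-- a chord bound: if `z ≤ c + t a` on `[lo, hi]` and the quadratic inequality holds at both
endpoints then `z^2 ≤ C a` -/
lemma sq_le_of_tangent (z a c t C lo hi : ℝ) (hz : 0 ≤ z) (h : z ≤ c + t * a)
    (hlo : lo ≤ a) (hhi : a ≤ hi) (hlt : lo < hi)
    (q1 : (c + t * lo) ^ 2 ≤ C * lo) (q2 : (c + t * hi) ^ 2 ≤ C * hi) :
    z ^ 2 ≤ C * a := by
  have hza : z ^ 2 ≤ (c + t * a) ^ 2 := pow_le_pow_left₀ hz h 2
  have key : (hi - lo) * (C * a - (c + t * a) ^ 2)
      = (hi - a) * (C * lo - (c + t * lo) ^ 2) + (a - lo) * (C * hi - (c + t * hi) ^ 2)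
        + t ^ 2 * ((hi - a) * (a - lo)) * (hi - lo) := by ring
  have hpos : 0 ≤ (hi - lo) * (C * a - (c + t * a) ^ 2) := by
    rw [key]
    have e1 : 0 ≤ (hi - a) * (C * lo - (c + t * lo) ^ 2) :=
      mul_nonneg (by linarith) (by linarith)
    have e2 : 0 ≤ (a - lo) * (C * hi - (c + t * hi) ^ 2) :=
      mul_nonneg (by linarith) (by linarith)
    have e3 : 0 ≤ t ^ 2 * ((hi - a) * (a - lo)) * (hi - lo) :=
      mul_nonneg (mul_nonneg (sq_nonneg t) (mul_nonneg (by linarith) (by linarith)))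
        (by linarith)
    linarith
  have h2 : 0 ≤ C * a - (c + t * a) ^ 2 := by
    by_contra hcon
    have hneg : C * a - (c + t * a) ^ 2 < 0 := not_le.mp hcon
    have : (hi - lo) * (C * a - (c + t * a) ^ 2) < 0 :=
      mul_neg_of_pos_of_neg (by linarith) hneg
    linarith
  linarith

lemma log16_le : Real.log 16 ≤ 2.7725887232 := by
  have h2 : Real.log 2 < (0.6931471808 : ℝ) := Real.log_two_lt_d9
  have : Real.log 16 = 4 * Real.log 2 := by
    rw [show (16:ℝ) = 2 ^ 4 by norm_num, Real.log_pow]; norm_num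
  rw [this]; linarith

/-- numerical core of the universal bound -/
lemma num_universal (z a : ℝ) (hz : 0 ≤ z) (ha0 : 0 ≤ a) (ha1 : a ≤ 1)
    (h0 : z ^ 2 ≤ 2 * a ^ 2 * Real.log (1 / a))
    (h1 : z ≤ 102285264 / 1000000000 + 89 / 100 * a)
    (h2 : z ≤ 155372442 / 1000000000 + 13 / 20 * a)
    (h3 : z ≤ 163254100 / 1000000000 + 31 / 50 * a)
    (h4 : z ≤ 168672785 / 1000000000 + 3 / 5 * a)
    (h5 : z ≤ 200899615 / 1000000000 + 49 / 100 * a)
    (h6 : z ≤ 393962272 / 1000000000 + 1 / 100 * a) :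
    z ^ 2 ≤ 81 / 200 * a := by
  rcases le_total a (1 / 16) with hs | hs
  · have hsl := small_log a ha0 hs
    have hl := log16_le
    have e : 2 * a ^ 2 * Real.log (1 / a) = 2 * a * (a * Real.log (1 / a)) := by ring
    rw [e] at h0
    have : 2 * a * (a * Real.log (1 / a)) ≤ 2 * a * (Real.log 16 / 16) :=
      mul_le_mul_of_nonneg_left hsl (by linarith)
    nlinarith
  rcases le_total a (221 / 1000) with hb1 | hb1
  · exact sq_le_of_tangent z a _ _ _ (1 / 16) (221 / 1000) hz h1 hs hb1 (by norm_num)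
      (by norm_num) (by norm_num)
  rcases le_total a (33 / 125) with hb2 | hb2
  · exact sq_le_of_tangent z a _ _ _ (221 / 1000) (33 / 125) hz h2 hb1 hb2 (by norm_num)
      (by norm_num) (by norm_num)
  rcases le_total a (34 / 125) with hb3 | hb3
  · exact sq_le_of_tangent z a _ _ _ (33 / 125) (34 / 125) hz h3 hb2 hb3 (by norm_num)
      (by norm_num) (by norm_num)
  rcases le_total a (293 / 1000) with hb4 | hb4
  · exact sq_le_of_tangent z a _ _ _ (34 / 125) (293 / 1000) hz h4 hb3 hb4 (by norm_num)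
      (by norm_num) (by norm_num)
  rcases le_total a (573 / 1000) with hb5 | hb5
  · exact sq_le_of_tangent z a _ _ _ (293 / 1000) (573 / 1000) hz h5 hb4 hb5 (by norm_num)
      (by norm_num) (by norm_num)
  · exact sq_le_of_tangent z a _ _ _ (573 / 1000) 1 hz h6 hb5 ha1 (by norm_num)
      (by norm_num) (by norm_num)

/-- numerical core of the small-cell bound -/
lemma num_small (z a : ℝ) (hz : 0 ≤ z) (ha0 : 0 ≤ a) (ha1 : a ≤ 1 / 7)
    (h0 : z ^ 2 ≤ 2 * a ^ 2 * Real.log (1 / a))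
    (h1 : z ≤ 72790274 / 1000000000 + 107 / 100 * a) :
    z ^ 2 ≤ 9 / (8 * π) * a := by
  have hpi : π < 3.141593 := Real.pi_lt_d6
  have hpi0 : 0 < π := Real.pi_pos
  have hC : (9 / (8 * 3.141593) : ℝ) ≤ 9 / (8 * π) := by
    apply div_le_div_of_nonneg_left (by norm_num) (by positivity)
    linarith
  have hfin : 9 / (8 * 3.141593) * a ≤ 9 / (8 * π) * a := mul_le_mul_of_nonneg_right hC ha0
  refine le_trans ?_ hfin
  rcases le_total a (1 / 16) with hs | hs
  · have hsl := small_log a ha0 hs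
    have hl := log16_le
    have e : 2 * a ^ 2 * Real.log (1 / a) = 2 * a * (a * Real.log (1 / a)) := by ring
    rw [e] at h0
    have : 2 * a * (a * Real.log (1 / a)) ≤ 2 * a * (Real.log 16 / 16) :=
      mul_le_mul_of_nonneg_left hsl (by linarith)
    have hn : (2.7725887232 / 8 : ℝ) ≤ 9 / (8 * 3.141593) := by norm_num
    nlinarith
  · exact sq_le_of_tangent z a _ _ _ (1 / 16) (1 / 7) hz h1 hs ha1 (by norm_num)
      (by norm_num) (by norm_num)

lemma cell_mass_le_one (A : Set E) : ((stdGaussian E) A).toReal ≤ 1 := by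
  have : (stdGaussian E) A ≤ 1 := prob_le_one
  exact ENNReal.toReal_le_of_le_ofReal zero_le_one (by simpa using this)

/-- per-cell universal bound -/
lemma cell_universal (A : Set E) :
    ‖∫ x in A, x ∂(stdGaussian E)‖ ^ 2 ≤ 81 / 200 * ((stdGaussian E) A).toReal := by
  have hp0 : 0 ≤ ((stdGaussian E) A).toReal := ENNReal.toReal_nonneg
  refine num_universal _ _ (norm_nonneg _) hp0 (cell_mass_le_one A) (cell_bound A) ?_ ?_ ?_ ?_ ?_ ?_
  · have h := cell_hinge A (89 / 100) (by norm_num)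
    have := hinge_89
    linarith
  · have h := cell_hinge A (13 / 20) (by norm_num)
    have := hinge_65
    linarith
  · have h := cell_hinge A (31 / 50) (by norm_num)
    have := hinge_62
    linarith
  · have h := cell_hinge A (3 / 5) (by norm_num)
    have := hinge_60
    linarith
  · have h := cell_hinge A (49 / 100) (by norm_num)
    have := hinge_49
    linarith
  · have h := cell_hinge A (1 / 100) (by norm_num)
    have := hinge_01
    linarith

/-- per-cell bound for cells of measure at most `1/7` -/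
lemma cell_small (A : Set E) (hA : ((stdGaussian E) A).toReal ≤ 1 / 7) :
    ‖∫ x in A, x ∂(stdGaussian E)‖ ^ 2 ≤ 9 / (8 * π) * ((stdGaussian E) A).toReal := by
  have hp0 : 0 ≤ ((stdGaussian E) A).toReal := ENNReal.toReal_nonneg
  refine num_small _ _ (norm_nonneg _) hp0 hA (cell_bound A) ?_
  have h := cell_hinge A (107 / 100) (by norm_num)
  have := hinge_107
  linarith

/-- every cell has `‖z(A)‖^2 ≤ 1/(2π)` -/
lemma cell_half (A : Set E) :
    ‖∫ x in A, x ∂(stdGaussian E)‖ ^ 2 ≤ 1 / (2 * π) := by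
  have h := cell_hinge A 0 le_rfl
  rw [hinge_zero, zero_mul, add_zero] at h
  have hs : 0 ≤ (Real.sqrt (2 * π))⁻¹ := by positivity
  have h2 : ‖∫ x in A, x ∂(stdGaussian E)‖ ^ 2 ≤ ((Real.sqrt (2 * π))⁻¹) ^ 2 :=
    pow_le_pow_left₀ (norm_nonneg _) h 2
  have e : ((Real.sqrt (2 * π))⁻¹) ^ 2 = 1 / (2 * π) := by
    rw [inv_pow, Real.sq_sqrt (by positivity), one_div]
  rw [e] at h2
  exact h2

theorem universal_main (k : ℕ) (A : Fin k → Set E) (hA : ∀ i, MeasurableSet (A i))
    (hd : Pairwise (fun i j => Disjoint (A i) (A j))) :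
    (∀ i, ‖∫ x in A i, x ∂(stdGaussian E)‖ ^ 2 ≤ 81 / 200 * ((stdGaussian E) (A i)).toReal) ∧
    (∑ i, ‖∫ x in A i, x ∂(stdGaussian E)‖ ^ 2 ≤ 81 / 200) ∧
    ((∀ i, ((stdGaussian E) (A i)).toReal ≤ 1 / 7) →
      ∑ i, ‖∫ x in A i, x ∂(stdGaussian E)‖ ^ 2 ≤ 9 / (8 * π)) ∧
    ((∃ i, 51 / 100 ≤ ((stdGaussian E) (A i)).toReal) →
      ∑ i, ‖∫ x in A i, x ∂(stdGaussian E)‖ ^ 2 ≤ 9 / (8 * π)) := by
  have hmass := sum_mass_le_one A hA hd
  have hpi0 : 0 < π := Real.pi_pos
  have huniv : ∑ i, ‖∫ x in A i, x ∂(stdGaussian E)‖ ^ 2 ≤ 81 / 200 := by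
    calc ∑ i, ‖∫ x in A i, x ∂(stdGaussian E)‖ ^ 2
        ≤ ∑ i, 81 / 200 * ((stdGaussian E) (A i)).toReal :=
          Finset.sum_le_sum (fun i _ => cell_universal (A i))
      _ = 81 / 200 * ∑ i, ((stdGaussian E) (A i)).toReal := by rw [Finset.mul_sum]
      _ ≤ 81 / 200 * 1 := mul_le_mul_of_nonneg_left hmass (by norm_num)
      _ = 81 / 200 := by norm_num
  refine ⟨fun i => cell_universal (A i), huniv, fun hsmall => ?_, fun hbig => ?_⟩
  · calc ∑ i, ‖∫ x in A i, x ∂(stdGaussian E)‖ ^ 2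
        ≤ ∑ i, 9 / (8 * π) * ((stdGaussian E) (A i)).toReal :=
          Finset.sum_le_sum (fun i _ => cell_small (A i) (hsmall i))
      _ = 9 / (8 * π) * ∑ i, ((stdGaussian E) (A i)).toReal := by rw [Finset.mul_sum]
      _ ≤ 9 / (8 * π) * 1 := mul_le_mul_of_nonneg_left hmass (by positivity)
      _ = 9 / (8 * π) := by rw [mul_one]
  · obtain ⟨i0, hi0⟩ := hbig
    have hsplit : ∑ i, ‖∫ x in A i, x ∂(stdGaussian E)‖ ^ 2
        = ‖∫ x in A i0, x ∂(stdGaussian E)‖ ^ 2
          + ∑ i ∈ Finset.univ.erase i0, ‖∫ x in A i, x ∂(stdGaussian E)‖ ^ 2 :=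
      (Finset.add_sum_erase Finset.univ _ (Finset.mem_univ i0)).symm
    have hsplit2 : ∑ i, ((stdGaussian E) (A i)).toReal
        = ((stdGaussian E) (A i0)).toReal
          + ∑ i ∈ Finset.univ.erase i0, ((stdGaussian E) (A i)).toReal :=
      (Finset.add_sum_erase Finset.univ _ (Finset.mem_univ i0)).symm
    have hrest : ∑ i ∈ Finset.univ.erase i0, ‖∫ x in A i, x ∂(stdGaussian E)‖ ^ 2
        ≤ 81 / 200 * ∑ i ∈ Finset.univ.erase i0, ((stdGaussian E) (A i)).toReal := by
      rw [Finset.mul_sum]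
      exact Finset.sum_le_sum (fun i _ => cell_universal (A i))
    have hh := cell_half (A i0)
    have hmass2 : ∑ i ∈ Finset.univ.erase i0, ((stdGaussian E) (A i)).toReal ≤ 49 / 100 := by
      linarith
    have hnum : 1 / (2 * π) + 81 / 200 * (49 / 100) ≤ 9 / (8 * π) := by
      have hpi : π < 3.1416 := Real.pi_lt_d4
      have e : 9 / (8 * π) - 1 / (2 * π) = 5 / (8 * π) := by
        field_simp; ring
      have h5 : (81 / 200 * (49 / 100) : ℝ) ≤ 5 / (8 * π) := by
        rw [le_div_iff₀ (by positivity)]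
        nlinarith
      linarith
    rw [hsplit]
    nlinarith

end Vale.Agent.Lib.P226
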